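import Vale.Agent.P155.NT426.Flux
import Vale.Agent.P155.G1.Decay

/-!
# P155, NT, L1: the harmonic mass of a layer

`band`: the sum of `H` over all faces at distance at most `4 h` of the boundary which see the side
`P` (where `H` vanishes) is at most `C h²` times the flux bound of `flux_first`.
-/

namespace Vale.Agent.P155.NT12

open Finset Vale.Agent.P155 G45 G S743 NT802 NT276 NT426 J T802 H12

/-- **Green's formula**, symmetric form: two harmonic functions -/
theorem green_hh {O : Set Pt} (hO : O.Finite) {A H : Pt → ℝ} (hA : ∀ x ∈ O, lap A x = 0)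
    (hH : ∀ x ∈ O, lap H x = 0) :
    ∑ x ∈ hO.toFinset, wh O A x * H x = ∑ x ∈ hO.toFinset, wh O H x * A x := by
  classical
  set U := hO.toFinset with hU
  have hmem : ∀ x, x ∈ U ↔ x ∈ O := fun x => by simp [hU]
  have e1 : ∀ x, lap A x * H x - A x * lap H x = ∑ y ∈ nbrs x, (A y * H x - A x * H y) := by
    intro x
    rw [lap_sum, lap_sum, sum_mul, mul_sum, ← sum_sub_distrib]
    apply sum_congr rfl
    intro y _
    ring
  have e0 : ∑ x ∈ U, (lap A x * H x - A x * lap H x) = 0 := by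
    apply sum_eq_zero
    intro x hx
    rw [hA x ((hmem x).1 hx), hH x ((hmem x).1 hx)]
    ring
  have e2 : ∑ x ∈ U, (lap A x * H x - A x * lap H x) =
      ∑ x ∈ U, ∑ y ∈ (nbrs x).filter (fun y => y ∈ U), (A y * H x - A x * H y) +
      ∑ x ∈ U, ∑ y ∈ (nbrs x).filter (fun y => y ∉ U), (A y * H x - A x * H y) := by
    rw [← sum_add_distrib]
    apply sum_congr rfl
    intro x _
    rw [e1, sum_filter_add_sum_filter_not]
  have e3 : ∑ x ∈ U, ∑ y ∈ (nbrs x).filter (fun y => y ∈ U), (A y * H x - A x * H y) = 0 := by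
    have h := NT.inner_swap U (fun x y => A y * H x - A x * H y)
    have h' : ∑ x ∈ U, ∑ y ∈ (nbrs x).filter (fun y => y ∈ U), (A x * H y - A y * H x) =
        - ∑ x ∈ U, ∑ y ∈ (nbrs x).filter (fun y => y ∈ U), (A y * H x - A x * H y) := by
      rw [← sum_neg_distrib]
      apply sum_congr rfl
      intro x _
      rw [← sum_neg_distrib]
      apply sum_congr rfl
      intro y _
      ring
    rw [h'] at h
    linarith
  have e4 : ∑ x ∈ U, ∑ y ∈ (nbrs x).filter (fun y => y ∉ U), (A y * H x - A x * H y) =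
      ∑ x ∈ U, wh O A x * H x - ∑ x ∈ U, wh O H x * A x := by
    rw [← sum_sub_distrib]
    apply sum_congr rfl
    intro x _
    unfold wh
    have e5 : (nbrs x).filter (fun a => a ∉ O) = (nbrs x).filter (fun y => y ∉ U) := by
      apply filter_congr
      intro a _
      rw [hmem]
    rw [e5, sum_mul, sum_mul, ← sum_sub_distrib]
    apply sum_congr rfl
    intro y _
    ring
  rw [e0, e3, e4, zero_add] at e2
  linarith

/-- **The harmonic mass of a set below the weight of a harmonic function.** -/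
theorem mass_le {O : Set Pt} (hO : O.Finite) {H A v ψ : Pt → ℝ} {c : ℝ}
    (hH : ∀ x ∈ O, lap H x = 0) (hH0 : ∀ x, 0 ≤ H x) (hA : ∀ x ∈ O, lap A x = 0)
    (hv : IsGreen O ψ v) (hvA : ∀ x, v x ≤ c * A x) :
    ∑ x ∈ hO.toFinset, ψ x * H x ≤ c * ∑ x ∈ hO.toFinset, wh O A x * H x := by
  classical
  have h1 := green_bd hO H hv.off
  have h2 : ∑ x ∈ hO.toFinset, lap H x * v x = 0 := by
    apply sum_eq_zero
    intro x hx
    rw [hH x (by simpa using hx), zero_mul]
  have h3 : ∑ x ∈ hO.toFinset, H x * lap v x = - ∑ x ∈ hO.toFinset, ψ x * H x := by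
    rw [← sum_neg_distrib]
    apply sum_congr rfl
    intro x hx
    have := hv.eq x (by simpa using hx)
    rw [← this]
    ring
  rw [h2, h3, zero_sub, neg_neg] at h1
  rw [← h1, green_hh hO hA hH, mul_sum]
  apply sum_le_sum
  intro x _
  have h4 := mul_le_mul_of_nonneg_left (hvA x) (wh_nonneg hH0 x (O := O))
  calc wh O H x * v x ≤ wh O H x * (c * A x) := h4
    _ = _ := by ring

/-- **Lower bound near the side `P`.**  `A` harmonic in `O`, equal to one on the boundary faces with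
`P` near `x0`. -/
theorem near_half : ∃ K : ℕ, 3 ≤ K ∧ ∀ (O : Set Pt), CPr O → ∀ (P : Pt → Prop) (q : Pt)
    (r1 d a h : ℕ) (A : Pt → ℝ), SepA O P q r1 d → a ≤ r1 → 1 ≤ h → (2 * K + 5) * h ≤ d →
    (∀ x ∈ O, lap A x = 0) → (∀ x, 0 ≤ A x) → (∀ x, A x ≤ 1) →
    (∀ b, b ∉ O → P b → dn q b ≤ a → A b = 1) →
    ∀ x ∈ O, dn q x + (2 * K + 5) * h ≤ a → dF O x ≤ 4 * h → Seen O P q r1 (4 * h) x →
      1 / 2 ≤ A x := by
  classical
  obtain ⟨β, hβ, hSD, _⟩ := G1.decay
  obtain ⟨K, hK3, hK⟩ := exists_K hβ (show (0 : ℝ) ≤ 2 by norm_num) (ε := 1 / 2) (by norm_num)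
  refine ⟨K, hK3, ?_⟩
  intro O hCP P q r1 d a h A hsep har hh hKd hA hA0 hA1 hAb x0 hx0 hqx hdx hseen
  by_cases hOne : ∃ p, p ∉ O
  swap
  · push Not at hOne
    obtain ⟨f', b, _, _, hb, _⟩ := hseen
    exact absurd (hOne b) hb
  obtain ⟨p, hpO, hdp⟩ := exists_dF hOne x0
  have hd2 : dn p x0 ≤ 4 * h := by rw [dn_comm, hdp]; exact hdx
  obtain ⟨L, hL⟩ : ∃ L : ℕ, L = 2 * K * h := ⟨_, rfl⟩
  have hLh : (2 * K + 5) * h = L + 5 * h := by rw [hL]; ring
  rw [hLh] at hKd hqx
  have hL6 : 6 * h ≤ L := by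
    rw [hL]
    exact Nat.mul_le_mul_right h (by omega)
  set B : Set Pt := {y | y ∈ O ∧ y ∈ box p L} with hB
  have hx0B : x0 ∈ B := ⟨hx0, G45.mem_box.2 (by omega)⟩
  set O' : Set Pt := {y | Conn B x0 y} with hO'
  have hO'B : ∀ y ∈ O', y ∈ B := fun y hy => Conn.right hy
  set u : Pt → ℝ := fun y => if y ∈ O' then 1 - A y else 0 with hu
  obtain ⟨f', b, cf, hfb, hb, hPb⟩ := hseen
  have hBd : B ⊆ {x | x ∈ O ∧ x ∈ box q r1 ∧ x ∈ box x0 d} := by
    rintro y ⟨hyO, hy⟩
    have h1 := G45.mem_box.1 hy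
    have h2 := dn_tri x0 p y
    have h3 := dn_comm x0 p
    have h4 := dn_tri q x0 y
    exact ⟨hyO, G45.mem_box.2 (by omega), G45.mem_box.2 (by omega)⟩
  have cf' : Conn {x | x ∈ O ∧ x ∈ box q r1 ∧ x ∈ box x0 d} x0 f' := by
    refine Conn.mono ?_ cf
    rintro z ⟨z1, z2, z3⟩
    exact ⟨z1, z2, box_mono (by omega) z3⟩
  have hval : ∀ y ∈ O', dn p y < L → ∀ z, Adj y z → u z = 1 - A z := by
    intro y hy hyL z hyz
    have hyB := hO'B y hy
    have hyz1 := dn_of_adj hyz
    by_cases hzO : z ∈ O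
    · have hzB : z ∈ B := ⟨hzO, G45.mem_box.2 (by have := dn_tri p y z; omega)⟩
      have hz' : z ∈ O' := Conn.trans hy (Conn.step hyB hzB hyz)
      simp only [hu]
      rw [if_pos hz']
    · have hz' : z ∉ O' := fun h' => hzO (hO'B z h').1
      simp only [hu]
      rw [if_neg hz']
      have hPz : P z := by
        refine (hsep x0 f' y ?_ b z hb hzO hfb hyz).1 hPb
        exact cf'.symm.trans (Conn.mono hBd hy)
      have hqz : dn q z ≤ a := by
        have h1 := dn_tri p y z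
        have h2 := dn_tri x0 p z
        have h3 := dn_comm x0 p
        have h4 := dn_tri q x0 z
        omega
      rw [hAb z hzO hPz hqz, sub_self]
  have h1 := hSD O' p L 1 u
    (fun r _ => by
      obtain ⟨y, hy, hy'⟩ := hCP p hpO r
      exact ⟨y, fun h' => hy (hO'B y h').1, hy'⟩)
    (fun x hx => by simp only [hu]; rw [if_neg hx])
    (fun y hy hyL => by
      rw [NT426.lap_congr_adj (g := fun z => 1 - A z) (fun z hz => hval y hy hyL z hz)
        (by simp only [hu]; rw [if_pos hy]), lap_sub, lap_const, hA y (hO'B y hy).1, sub_zero])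
    (fun y _ => by
      simp only [hu]
      split_ifs
      · rw [abs_le]
        constructor
        · linarith [hA1 y]
        · linarith [hA0 y]
      · rw [abs_zero]; exact zero_le_one)
    x0 (by omega)
  have hux : u x0 = 1 - A x0 := by
    simp only [hu]
    rw [if_pos (show x0 ∈ O' from Conn.refl hx0B)]
  rw [hux, mul_one] at h1
  have h2 : 2 * (((dn p x0 : ℝ) + 1) / ((L : ℝ) + 1)) ^ β ≤ 1 / 2 := by
    refine le_trans ?_ hK
    apply mul_le_mul_of_nonneg_left _ (by norm_num)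
    apply Real.rpow_le_rpow (by positivity) _ hβ.le
    have hKpos : (0 : ℝ) < K := by
      have : (3 : ℝ) ≤ K := by exact_mod_cast hK3
      linarith
    rw [div_le_div_iff₀ (by positivity) hKpos]
    have hd2' : (dn p x0 : ℝ) ≤ 4 * h := by exact_mod_cast hd2
    have hh' : (1 : ℝ) ≤ h := by exact_mod_cast hh
    rw [hL]
    push_cast
    nlinarith [mul_le_mul_of_nonneg_left hh' hKpos.le]
  have h3 := (le_abs_self _).trans (h1.trans h2)
  linarith

open Classical in
/-- **L1: the harmonic mass of the layer.** -/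
theorem band : ∃ (C : ℝ) (C1 : ℕ), 0 ≤ C ∧ ∀ (O : Set Pt) (hO : O.Finite), CPr O →
    ∀ (P : Pt → Prop) (q : Pt) (r1 d a s D h : ℕ) (H : Pt → ℝ), SepA O P q r1 d →
    2 * D + 11 ≤ d → 16 ≤ s → 16 ≤ D → D ≤ s → a + s + (2 * D + 12) ≤ r1 → 1 ≤ h →
    C1 * h ≤ D → (∀ x ∈ O, lap H x = 0) → (∀ x, 0 ≤ H x ∧ H x ≤ 1) →
    (∀ b, b ∉ O → P b → dn q b ≤ a + s + 1 → H b = 0) →
    ∑ x ∈ hO.toFinset.filter (fun x => dn q x + C1 * h ≤ a ∧ dF O x ≤ 4 * h ∧
      Seen O P q r1 (4 * h) x), H x ≤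
      C * (h : ℝ) ^ 2 * ((2 * ((a : ℝ) + s) + 3) / D) ^ 2 := by
  obtain ⟨K, hK3, hK⟩ := near_half
  obtain ⟨β, hβ, hSD, _⟩ := G1.decay
  obtain ⟨E, hE, hvis⟩ := visits_potential_local hβ (show (0 : ℝ) ≤ 2 by norm_num) hSD
  refine ⟨8 * E * 4194304, 2 * K + 5, by positivity, ?_⟩
  intro O hO hCP P q r1 d a s D h H hsep hd hs hD hDs hr hh hC1 hH hH01 hHb
  set S := hO.toFinset.filter (fun x => dn q x + (2 * K + 5) * h ≤ a ∧ dF O x ≤ 4 * h ∧
      Seen O P q r1 (4 * h) x) with hS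
  have hmem : ∀ x, x ∈ S ↔ x ∈ O ∧ dn q x + (2 * K + 5) * h ≤ a ∧ dF O x ≤ 4 * h ∧
      Seen O P q r1 (4 * h) x := fun x => by simp [hS]
  have hO' := exists_notMem hO
  -- the harmonic function with the boundary values of the weight
  obtain ⟨A, hA1, hA2⟩ := exists_dirichlet hO (fun _ => 0) (wS O P q r1 a s D)
  have hAh : ∀ x ∈ O, lap A x = 0 := fun x hx => by linarith [hA2 x hx]
  have hA0 : ∀ x, 0 ≤ A x := by
    apply comparison hO (u := fun _ => 0)
    · intro y hy
      rw [lap_const]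
      linarith [hA2 y hy]
    · intro y hy
      rw [hA1 y hy]
      exact wS_nonneg hD y
  have hAle : ∀ x, A x ≤ 1 := by
    apply comparison hO (v := fun _ => 1)
    · intro y hy
      rw [lap_const]
      linarith [hA2 y hy]
    · intro y hy
      rw [hA1 y hy]
      exact wS_le_one hs hD y
  have hhalf := hK O hCP P q r1 d a h A hsep (by omega) hh (by omega) hAh hA0 hAle
    (fun b hb hPb hqb => by
      rw [hA1 b hb, wS_bd hD hb, if_pos hPb, plat_one hs hqb])
  -- the potential of the layer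
  set ψ : Pt → ℝ := fun x => if x ∈ S then 1 else 0 with hψ
  obtain ⟨v, hv⟩ := exists_green hO ψ
  have hψ1 : ∀ x, ψ x ≠ 0 → x ∈ S := by
    intro x hx
    by_contra hn
    exact hx (by simp [hψ, hn])
  have hvA := hvis O hO hCP (2 * h) (by omega) ψ v (fun x => 2 * A x)
    (fun x => by simp only [hψ]; split_ifs <;> norm_num)
    (fun x => by simp only [hψ]; split_ifs <;> norm_num)
    (fun x hx => by
      have := ((hmem x).1 (hψ1 x hx)).2.2.1
      omega) hv (fun x => by linarith [hA0 x])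
    (fun x hx _ => by rw [lap_smul, hAh x hx, mul_zero])
    (fun x hx hx' => by
      obtain ⟨_, h1, h2, h3⟩ := (hmem x).1 (hψ1 x hx')
      linarith [hhalf x hx h1 h2 h3])
  have h1 := mass_le hO (c := 8 * E * (h : ℝ) ^ 2) hH (fun x => (hH01 x).1) hAh hv
    (fun x => by
      refine (hvA x).trans (le_of_eq ?_)
      push_cast
      ring)
  have h2 : ∑ x ∈ S, H x = ∑ x ∈ hO.toFinset, ψ x * H x := by
    rw [hS, sum_filter]
    apply sum_congr rfl
    intro x hx
    have hxO : x ∈ O := by simpa using hx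
    by_cases hx' : x ∈ S
    · rw [if_pos ((hmem x).1 hx').2]
      simp only [hψ]
      rw [if_pos hx', one_mul]
    · rw [if_neg (fun h' => hx' ((hmem x).2 ⟨hxO, h'⟩))]
      simp only [hψ]
      rw [if_neg hx', zero_mul]
  have h3 : ∑ x ∈ hO.toFinset, wh O A x * H x =
      ∑ x ∈ hO.toFinset, wh O (wS O P q r1 a s D) x * H x := by
    apply sum_congr rfl
    intro x _
    rw [wh_congr x (fun b _ hb => hA1 b hb)]
  have h4 := flux_first (e := D) hO hsep hd hs hD hD hDs hr hH (fun x => by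
    rw [abs_of_nonneg (hH01 x).1]; exact (hH01 x).2) hHb
  rw [h2]
  refine h1.trans ?_
  rw [h3]
  calc 8 * E * (h : ℝ) ^ 2 * ∑ x ∈ hO.toFinset, wh O (wS O P q r1 a s D) x * H x
      ≤ 8 * E * (h : ℝ) ^ 2 * (4194304 * ((2 * ((a : ℝ) + s) + 3) / D) ^ 2) := by
        apply mul_le_mul_of_nonneg_left _ (by positivity)
        exact (le_abs_self _).trans h4
    _ = _ := by ring

end Vale.Agent.P155.NT12
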