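import Vale.Agent.P155.NT12.Band

/-!
# P155, NT, L1: the mass of the potential of a box on a layer
-/

namespace Vale.Agent.P155.NT12

open Finset Vale.Agent.P155 G45 G S743 NT802 NT276 NT426 J T802 H12

open Classical in
/-- the mass of the source -/
theorem src_le {O : Set Pt} (hO : O.Finite) (q : Pt) {ρ : ℕ} (hρ : 1 ≤ ρ) :
    ∑ y ∈ hO.toFinset, (if dn q y ≤ 4 * ρ then ((ρ : ℝ) ^ 2)⁻¹ else 0) ≤ 81 := by
  have hρ0 : (0 : ℝ) < ρ := by exact_mod_cast hρ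
  calc ∑ y ∈ hO.toFinset, (if dn q y ≤ 4 * ρ then ((ρ : ℝ) ^ 2)⁻¹ else 0)
      ≤ ∑ _y ∈ box q (4 * ρ), ((ρ : ℝ) ^ 2)⁻¹ := by
        rw [← Finset.sum_filter]
        apply Finset.sum_le_sum_of_subset_of_nonneg
        · intro x hx
          exact G45.mem_box.2 (Finset.mem_filter.1 hx).2
        · intro _ _ _
          positivity
    _ = (2 * (4 * (ρ : ℝ)) + 1) ^ 2 * ((ρ : ℝ) ^ 2)⁻¹ := by
        rw [Finset.sum_const, card_box, nsmul_eq_mul]
        push_cast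
        ring
    _ ≤ (81 * (ρ : ℝ) ^ 2) * ((ρ : ℝ) ^ 2)⁻¹ := by
        apply mul_le_mul_of_nonneg_right _ (by positivity)
        have : (1 : ℝ) ≤ ρ := by exact_mod_cast hρ
        nlinarith
    _ = 81 := by field_simp

open Classical in
/-- **the potential of a box at scale `ρ` has mass `≤ C h²` on the layer at height `4 h`** -/
theorem band_pot : ∃ C : ℝ, 0 ≤ C ∧ ∀ (O : Set Pt) (hO : O.Finite), CPr O →
    ∀ (h ρ : ℕ) (q : Pt) (v4 : Pt → ℝ), 1 ≤ h → 1 ≤ ρ →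
    IsGreen O (fun y => if dn q y ≤ 4 * ρ then ((ρ : ℝ) ^ 2)⁻¹ else 0) v4 →
    ∑ x ∈ hO.toFinset.filter (fun x => dF O x ≤ 4 * h), v4 x ≤ C * (h : ℝ) ^ 2 := by
  obtain ⟨β, hβ, hSD, _⟩ := G1.decay
  obtain ⟨E, hE, hvis⟩ := visits hβ (show (0 : ℝ) ≤ 2 by norm_num) hSD
  refine ⟨E * 4 * 81, by positivity, ?_⟩
  intro O hO hCP h ρ q v4 hh hρ hv
  have h1 := hvis O hO hCP (2 * h) (by omega) (hO.toFinset.filter (fun x => dF O x ≤ 4 * h)) _ v4
    (fun x hx => by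
      have := (mem_filter.1 hx).2
      omega) hv (fun x _ => by split_ifs <;> positivity)
  refine h1.trans ?_
  have h2 := mul_le_mul_of_nonneg_left (src_le hO q hρ)
    (show 0 ≤ E * ((2 * h : ℕ) : ℝ) ^ 2 by positivity)
  refine h2.trans (le_of_eq ?_)
  push_cast
  ring

end Vale.Agent.P155.NT12
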